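import Vale.Agent.P097.Two.Main

noncomputable section

namespace Vale.Agent.Results.P097.DegreeTwo

open Vale.Agent.P097.Sym

/-- A table whose radius of curvature is a trigonometric polynomial in twice the tangent angle of
degree one is integrable near the boundary only if it is a disc. -/
theorem result :
    ∀ (eta : ℝ), 0 < eta → eta ≤ Real.pi → ∀ (rho : ℝ → ℝ) (r0 a b : ℝ), IsTable rho → 0 < r0 →
      (∀ x, rho x = r0 * (1 + a * Real.cos (2 * x) + b * Real.sin (2 * x))) →
      (GraphIntegrable rho eta ↔ a = 0 ∧ b = 0) ∧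
      (GraphIntegrable rho eta → ∃ (c : ℂ) (R : ℝ), 0 < R ∧ ∀ x, ‖curve rho x - c‖ = R) := by
  intro eta h0 h1 rho r0 a b hT hr hrho
  have main := fun hI => Vale.Agent.P097.Two.degree_two_real h0 hT hr hrho hI
  refine ⟨⟨fun hI => ?_, fun ⟨ha, hb⟩ => graphIntegrable_of_const hT h1 fun x y => ?_⟩, fun hI => ?_⟩
  · have e1 := main hI 0 (Real.pi / 2)
    have e2 := main hI (Real.pi / 4) (-(Real.pi / 4))
    rw [hrho, hrho, show 2 * (Real.pi / 2) = Real.pi by ring, mul_zero] at e1
    rw [hrho, hrho, show 2 * (Real.pi / 4) = Real.pi / 2 by ring,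
      show 2 * -(Real.pi / 4) = -(Real.pi / 2) by ring] at e2
    simp only [Real.cos_zero, Real.sin_zero, Real.cos_pi, Real.sin_pi, Real.cos_pi_div_two,
      Real.sin_pi_div_two, Real.cos_neg, Real.sin_neg] at e1 e2
    constructor <;> nlinarith [mul_left_cancel₀ hr.ne' e1, mul_left_cancel₀ hr.ne' e2]
  · rw [hrho, hrho, ha, hb]; simp
  · exact ⟨_, rho 0, hT.2.1 0, curve_circle hT (main hI)⟩

end Vale.Agent.Results.P097.DegreeTwo
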