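import Vale.Agent.P097.Sym.Disc

noncomputable section

namespace Vale.Agent.Results.P097.SymmetricTables

open Vale.Agent.P097.Sym

/-- A table with a rotational symmetry of order `k > pi / eta` that is foliated by invariant
graphs up to the angle `eta` is a disc. -/
theorem result :
    ∀ (rho : ℝ → ℝ) (eta : ℝ) (k : ℕ), IsTable rho → eta ≤ Real.pi → Real.pi < k * eta →
      Function.Periodic rho (2 * Real.pi / k) →
      (GraphIntegrable rho eta ↔ ∀ x y, rho x = rho y) ∧
      (GraphIntegrable rho eta →
        ∃ (c : ℂ) (R : ℝ), 0 < R ∧ ∀ x, ‖curve rho x - c‖ = R) :=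
  fun rho _ _ h he hk ha =>
    ⟨⟨table_is_disc h hk ha, graphIntegrable_of_const h he⟩, fun hint =>
      ⟨_, rho 0, h.2.1 0, curve_circle h (table_is_disc h hk ha hint)⟩⟩

end Vale.Agent.Results.P097.SymmetricTables
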