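import Vale.Agent.P097.Trig.Main

noncomputable section

namespace Vale.Agent.Results.P097.TrigNearDisc

open Vale.Agent.P097.Sym Finset

/-- A table whose radius of curvature is a trigonometric polynomial close to a constant is
integrable near the boundary only if it is a disc. -/
theorem result :
    ∀ (N : ℕ) (eta : ℝ), 0 < eta → eta ≤ Real.pi → ∃ e : ℝ, 0 < e ∧
      ∀ (rho : ℝ → ℝ) (r0 : ℝ) (a b : ℕ → ℝ), IsTable rho → 0 < r0 →
        (∀ x, rho x = r0 * (1 + ∑ n ∈ Icc 2 N, (a n * Real.cos (n * x) + b n * Real.sin (n * x)))) →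
        (∀ n ∈ Icc 2 N, |a n| < e ∧ |b n| < e) →
        (GraphIntegrable rho eta ↔ ∀ x y, rho x = rho y) ∧
        (GraphIntegrable rho eta → ∃ (c : ℂ) (R : ℝ), 0 < R ∧ ∀ x, ‖curve rho x - c‖ = R) := by
  intro N eta h0 h1
  obtain ⟨e, he, main⟩ := Vale.Agent.P097.Trig.near_disc_real N h0
  refine ⟨e, he, fun rho r0 a b hT hr hrho hab => ⟨⟨main rho r0 a b hT hr hrho hab,
    graphIntegrable_of_const hT h1⟩, fun hI => ?_⟩⟩
  exact ⟨_, rho 0, hT.2.1 0, curve_circle hT (main rho r0 a b hT hr hrho hab hI)⟩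

end Vale.Agent.Results.P097.TrigNearDisc
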